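import Vale.Agent.P355.H387U.RowChk
import Vale.Agent.P355.H138.Sos

/-! Label-only squares for the arrays with four marks `c, c', d, d'` (indices `0..3`) and six
vertices (`4..9`), symmetric under a group of order 32 of signed permutations of the 13 cells. -/

namespace Vale.Agent.P355.H129U

open Finset Vale.Agent.P355
open Vale.Agent.P355.H138 (pw6 r6 pw6_nonneg pw6_le par6 pw6_mul PSD)
open Vale.Agent.P355.H387U (NM Cls s01 s23 sx)

set_option linter.unusedSectionVars false

/-- a class function for which label-only squares are nonnegative. -/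
def SqN (F : Bool → NM → ℝ) : Prop :=
  ∀ (N : ℕ) (G : ℕ → ℕ → ℝ), PSD N G → ∀ (b : ℕ → Bool) (f : ℕ → NM),
    0 ≤ ∑ i ∈ range N, ∑ j ∈ range N, G i j * ((par6 (b i) (b j) : ℝ) *
      F (xor (b i) (b j)) (fun p q => f i p q - f j p q))

/-! ### Cells -/

/-- row of a cell. -/
def ci (c : ℕ) : ℕ := if c < 5 then 4 else if c < 9 then c - 5 else (c - 9) / 2
/-- column of a cell. -/
def cj (c : ℕ) : ℕ :=
  if c = 0 then 4 else if c < 5 then c - 1 else if c < 9 then 4 else 2 + (c - 9) % 2

/-- the matrix of a vector of 13 exponents. -/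
def emb (v : ℕ → ℤ) : NM := fun i j => ∑ c ∈ range 13, if i = ci c ∧ j = cj c then v c else 0

theorem emb_sub (v w : ℕ → ℤ) :
    emb (fun c => v c - w c) = fun i j => emb v i j - emb w i j := by
  funext i j
  unfold emb
  rw [← sum_sub_distrib]
  exact sum_congr rfl fun c _ => by split_ifs <;> simp

theorem emb_congr {v w : ℕ → ℤ} (h : ∀ c < 13, v c = w c) : emb v = emb w := by
  funext i j
  unfold emb
  exact sum_congr rfl fun c hc => by rw [h c (mem_range.1 hc)]

/-! ### The group -/

/-- signed index tables of the generators: source cell `+ 16` for a sign. -/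
def gen (e c : ℕ) : ℕ :=
  match e with
  | 1 => [0, 2, 1, 3, 4, 6, 5, 7, 8, 11, 12, 9, 10].getD c 0
  | 2 => [0, 1, 2, 4, 3, 5, 6, 8, 7, 10, 9, 12, 11].getD c 0
  | 4 => [0, 3, 4, 1, 2, 7, 8, 5, 6, 25, 27, 26, 28].getD c 0
  | 8 => [0, 5, 6, 7, 8, 1, 2, 3, 4, 25, 26, 27, 28].getD c 0
  | 16 => [16, 17, 18, 19, 20, 21, 22, 23, 24, 25, 26, 27, 28].getD c 0
  | _ => c

/-- composition of signed indices: first `t`, then `s` applied to its source. -/
def cmp (s : ℕ → ℕ) (t : ℕ) : ℕ := Nat.xor (Nat.land t 16) (s (Nat.land t 15))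

/-- signed index table of the element `g = a + 2 b + 4 c + 8 t + 16 s`. -/
def tb (g c : ℕ) : ℕ :=
  cmp (gen (Nat.land g 4)) (cmp (gen (Nat.land g 2)) (cmp (gen (Nat.land g 1))
    (cmp (gen (Nat.land g 8)) (gen (Nat.land g 16) c))))

/-- multiplication. -/
def mulg (g h : ℕ) : ℕ :=
  let c := Nat.land (Nat.shiftRight g 2) 1
  let a' := Nat.land h 1
  let b' := Nat.land (Nat.shiftRight h 1) 1
  Nat.xor g (Nat.xor (Nat.land h 28) (cond (Nat.beq c 1) (b' + 2 * a') (a' + 2 * b')))

/-- the action on vectors. -/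
def act (g : ℕ) (v : ℕ → ℤ) (c : ℕ) : ℤ :=
  if (tb g c).testBit 4 then - v (Nat.land (tb g c) 15) else v (Nat.land (tb g c) 15)

/-- check of the tables. -/
def tabOK : Bool :=
  (List.range 32).all fun g => (List.range 32).all fun h => (List.range 13).all fun c =>
    Nat.beq (tb (mulg g h) c) (cmp (tb h) (tb g c)) && Nat.blt (tb g c) 32 &&
      Nat.blt (Nat.land (tb g c) 15) 13

theorem tabOK_true : tabOK = true := by decide +kernel

theorem tb_mul {g h c : ℕ} (hg : g < 32) (hh : h < 32) (hc : c < 13) :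
    tb (mulg g h) c = cmp (tb h) (tb g c) := by
  have := tabOK_true
  unfold tabOK at this
  simp only [List.all_eq_true, List.mem_range, Bool.and_eq_true] at this
  exact Nat.eq_of_beq_eq_true (this g hg h hh c hc).1.1

theorem tb_lt {g c : ℕ} (hg : g < 32) (hc : c < 13) :
    tb g c < 32 ∧ Nat.land (tb g c) 15 < 13 := by
  have := tabOK_true
  unfold tabOK at this
  simp only [List.all_eq_true, List.mem_range, Bool.and_eq_true] at this
  have h1 := this g hg 0 (by norm_num) c hc
  have h2 := h1.1.2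
  have h3 := h1.2
  rw [Nat.blt_eq] at h2 h3
  exact ⟨h2, h3⟩

theorem bit4 : ∀ t < 32, ∀ u < 32, (Nat.xor (Nat.land t 16) u).testBit 4
    = (t.testBit 4 ^^ u.testBit 4) ∧ Nat.land (Nat.xor (Nat.land t 16) u) 15 = Nat.land u 15 := by
  decide +kernel

theorem act_mul {g h : ℕ} (hg : g < 32) (hh : h < 32) (v : ℕ → ℤ) {c : ℕ} (hc : c < 13) :
    act (mulg g h) v c = act g (act h v) c := by
  obtain ⟨h1, h2⟩ := tb_lt hg hc
  obtain ⟨h3, h4⟩ := tb_lt hh h2
  have hb := bit4 _ h1 _ h3
  unfold act
  rw [tb_mul hg hh hc]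
  unfold cmp
  rw [hb.1, hb.2]
  cases (tb g c).testBit 4 <;> cases (tb h (Nat.land (tb g c) 15)).testBit 4 <;> simp

/-- check of the group structure. -/
def grpOK : Bool :=
  (List.range 32).all fun g =>
    (Nat.beq (mulg (Nat.land g 16) (mulg (Nat.land g 8) (mulg (Nat.land g 1)
      (mulg (Nat.land g 2) (Nat.land g 4))))) g) &&
    (List.range 32).all fun h => Nat.blt (mulg g h) 32 &&
      (Nat.beq (mulg g (mulg (mulg g h) 0)) h || true) &&
      (List.range 32).all fun k => (Nat.beq h k) || !(Nat.beq (mulg g h) (mulg g k))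

theorem grpOK_true : grpOK = true := by decide +kernel

theorem mulg_lt {g h : ℕ} (hg : g < 32) (hh : h < 32) : mulg g h < 32 := by
  have := grpOK_true
  unfold grpOK at this
  simp only [List.all_eq_true, List.mem_range, Bool.and_eq_true] at this
  have h1 := ((this g hg).2 h hh).1.1
  rwa [Nat.blt_eq] at h1

theorem mulg_inj {g h k : ℕ} (hg : g < 32) (hh : h < 32) (hk : k < 32)
    (e : mulg g h = mulg g k) : h = k := by
  have := grpOK_true
  unfold grpOK at this
  simp only [List.all_eq_true, List.mem_range, Bool.and_eq_true, Bool.or_eq_true,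
    Bool.not_eq_true'] at this
  have h1 := ((this g hg).2 h hh).2 k hk
  rcases h1 with h1 | h1
  · exact Nat.eq_of_beq_eq_true h1
  · rw [e] at h1
    have : Nat.beq (mulg g k) (mulg g k) = true := Nat.beq_refl _
    rw [this] at h1
    exact absurd h1 (by simp)

theorem gen_dec {g : ℕ} (hg : g < 32) : mulg (Nat.land g 16) (mulg (Nat.land g 8)
    (mulg (Nat.land g 1) (mulg (Nat.land g 2) (Nat.land g 4)))) = g := by
  have := grpOK_true
  unfold grpOK at this
  simp only [List.all_eq_true, List.mem_range, Bool.and_eq_true] at this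
  exact Nat.eq_of_beq_eq_true (this g hg).1

/-- sums over `mulg g h`. -/
theorem sum_mulg {g : ℕ} (hg : g < 32) (f : ℕ → ℝ) :
    ∑ h ∈ range 32, f (mulg g h) = ∑ h ∈ range 32, f h := by
  refine Finset.sum_bij (fun h _ => mulg g h) (fun h hh => ?_) (fun h hh k hk e => ?_)
    (fun k hk => ?_) (fun h hh => rfl)
  · exact mem_range.2 (mulg_lt hg (mem_range.1 hh))
  · exact mulg_inj hg (mem_range.1 hh) (mem_range.1 hk) e
  · have hsurj : Set.SurjOn (mulg g) (range 32 : Finset ℕ) (range 32 : Finset ℕ) :=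
      Finset.surjOn_of_injOn_of_card_le (mulg g)
        (fun h hh => mem_coe.2 (mem_range.2 (mulg_lt hg (mem_range.1 (mem_coe.1 hh)))))
        (fun h hh k hk e => mulg_inj hg (mem_range.1 (mem_coe.1 hh)) (mem_range.1 (mem_coe.1 hk)) e)
        le_rfl
    obtain ⟨h, hh, e⟩ := hsurj (mem_coe.2 hk)
    exact ⟨h, mem_coe.1 hh, e⟩

/-- invariance of a class function of vectors under the group. -/
def GInv (F : Bool → NM → ℝ) : Prop :=
  ∀ g < 32, ∀ b v, F b (emb (act g v)) = F b (emb v)

/-- invariance from the generators. -/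
theorem GInv.of_gen {F : Bool → NM → ℝ}
    (h1 : ∀ b v, F b (emb (act 1 v)) = F b (emb v)) (h2 : ∀ b v, F b (emb (act 2 v)) = F b (emb v))
    (h4 : ∀ b v, F b (emb (act 4 v)) = F b (emb v)) (h8 : ∀ b v, F b (emb (act 8 v)) = F b (emb v))
    (h16 : ∀ b v, F b (emb (act 16 v)) = F b (emb v)) : GInv F := by
  have h0 : ∀ b v, F b (emb (act 0 v)) = F b (emb v) := by
    intro b v
    have e0 : emb (act 0 v) = emb v := by
      refine emb_congr fun c hc => ?_
      have : ∀ c < 13, (tb 0 c).testBit 4 = false ∧ Nat.land (tb 0 c) 15 = c := by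
        decide +kernel
      obtain ⟨e1, e2⟩ := this c hc
      unfold act
      rw [e1, e2]
      exact if_neg Bool.false_ne_true
    rw [e0]
  have hm : ∀ g < 32, ∀ h < 32, (∀ b v, F b (emb (act g v)) = F b (emb v)) →
      (∀ b v, F b (emb (act h v)) = F b (emb v)) → ∀ b v, F b (emb (act (mulg g h) v))
        = F b (emb v) := by
    intro g hg h hh i1 i2 b v
    rw [emb_congr (w := act g (act h v)) fun c hc => act_mul hg hh v hc, i1, i2]
  have hl : ∀ g < 32, (Nat.land g 1 = 0 ∨ Nat.land g 1 = 1) ∧ (Nat.land g 2 = 0 ∨ Nat.land g 2 = 2) ∧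
      (Nat.land g 4 = 0 ∨ Nat.land g 4 = 4) ∧ (Nat.land g 8 = 0 ∨ Nat.land g 8 = 8) ∧
      (Nat.land g 16 = 0 ∨ Nat.land g 16 = 16) := by decide +kernel
  intro g hg
  obtain ⟨l1, l2, l4, l8, l16⟩ := hl g hg
  have k1 : ∀ b v, F b (emb (act (Nat.land g 1) v)) = F b (emb v) := by
    rcases l1 with e | e <;> rw [e]
    · exact h0
    · exact h1
  have k2 : ∀ b v, F b (emb (act (Nat.land g 2) v)) = F b (emb v) := by
    rcases l2 with e | e <;> rw [e]
    · exact h0
    · exact h2
  have k4 : ∀ b v, F b (emb (act (Nat.land g 4) v)) = F b (emb v) := by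
    rcases l4 with e | e <;> rw [e]
    · exact h0
    · exact h4
  have k8 : ∀ b v, F b (emb (act (Nat.land g 8) v)) = F b (emb v) := by
    rcases l8 with e | e <;> rw [e]
    · exact h0
    · exact h8
  have k16 : ∀ b v, F b (emb (act (Nat.land g 16) v)) = F b (emb v) := by
    rcases l16 with e | e <;> rw [e]
    · exact h0
    · exact h16
  have q1 : Nat.land g 1 < 32 := by rcases l1 with e | e <;> rw [e] <;> norm_num
  have q2 : Nat.land g 2 < 32 := by rcases l2 with e | e <;> rw [e] <;> norm_num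
  have q4 : Nat.land g 4 < 32 := by rcases l4 with e | e <;> rw [e] <;> norm_num
  have q8 : Nat.land g 8 < 32 := by rcases l8 with e | e <;> rw [e] <;> norm_num
  have q16 : Nat.land g 16 < 32 := by rcases l16 with e | e <;> rw [e] <;> norm_num
  have := hm _ q16 _ (mulg_lt q8 (mulg_lt q1 (mulg_lt q2 q4))) k16
    (hm _ q8 _ (mulg_lt q1 (mulg_lt q2 q4)) k8
      (hm _ q1 _ (mulg_lt q2 q4) k1 (hm _ q2 _ q4 k2 k4)))
  rwa [gen_dec hg] at this

/-- check of the sources. -/
def sOK (e : ℕ) (src : ℕ → ℕ → ℕ × ℕ) (sg : ℕ → ℕ → Bool) : Bool :=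
  (List.range 13).all fun c => (List.range 10).all fun i => (List.range 10).all fun j =>
    (decide (i = ci c ∧ j = cj c) == decide ((src i j).1 = ci (Nat.land (tb e c) 15) ∧
      (src i j).2 = cj (Nat.land (tb e c) 15))) &&
    (!(decide (i = ci c ∧ j = cj c)) || (sg i j == (tb e c).testBit 4))

theorem sOK_spec {e : ℕ} {src : ℕ → ℕ → ℕ × ℕ} {sg : ℕ → ℕ → Bool} (h : sOK e src sg = true) :
    ∀ c < 13, ∀ i < 10, ∀ j < 10, (i = ci c ∧ j = cj c ↔
      (src i j).1 = ci (Nat.land (tb e c) 15) ∧ (src i j).2 = cj (Nat.land (tb e c) 15)) ∧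
      (i = ci c ∧ j = cj c → sg i j = (tb e c).testBit 4) := by
  intro c hc i hi j hj
  unfold sOK at h
  simp only [List.all_eq_true, List.mem_range, Bool.and_eq_true] at h
  obtain ⟨h1, h2⟩ := h c hc i hi j hj
  have h3 := beq_iff_eq.1 h1
  refine ⟨⟨fun h4 => ?_, fun h4 => ?_⟩, fun h4 => ?_⟩
  · rw [decide_eq_true h4] at h3
    exact of_decide_eq_true h3.symm
  · rw [decide_eq_true h4] at h3
    exact of_decide_eq_true h3
  · rw [decide_eq_true h4] at h2
    simpa using h2

/-- sources of the cells. -/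
theorem emb_src (e : ℕ) (src : ℕ → ℕ → ℕ × ℕ) (sg : ℕ → ℕ → Bool)
    (hp : ∀ c < 13, Nat.land (tb e c) 15 < 13)
    (hi : ∀ c < 13, Nat.land (tb e (Nat.land (tb e c) 15)) 15 = c)
    (hs' : sOK e src sg = true) (v : ℕ → ℤ) :
    ∀ i < 10, ∀ j < 10, emb (act e v) i j
      = if sg i j then - emb v (src i j).1 (src i j).2 else emb v (src i j).1 (src i j).2 := by
  have hs := sOK_spec hs'
  intro i hi' j hj'
  have h1 : emb v (src i j).1 (src i j).2 = ∑ c ∈ range 13,
      if i = ci c ∧ j = cj c then v (Nat.land (tb e c) 15) else 0 := by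
    unfold emb
    symm
    refine Finset.sum_nbij' (fun c => Nat.land (tb e c) 15) (fun c => Nat.land (tb e c) 15)
      (fun c hc => mem_range.2 (hp c (mem_range.1 hc)))
      (fun c hc => mem_range.2 (hp c (mem_range.1 hc)))
      (fun c hc => hi c (mem_range.1 hc)) (fun c hc => hi c (mem_range.1 hc)) ?_
    intro c hc
    have h2 := (hs c (mem_range.1 hc) i hi' j hj').1
    by_cases h3 : i = ci c ∧ j = cj c
    · rw [if_pos h3, if_pos (h2.1 h3)]
    · rw [if_neg h3, if_neg fun h => h3 (h2.2 h)]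
  rw [h1]
  unfold emb
  have h4 : ∀ c ∈ range 13, (if i = ci c ∧ j = cj c then act e v c else 0)
      = if sg i j then - (if i = ci c ∧ j = cj c then v (Nat.land (tb e c) 15) else 0)
        else (if i = ci c ∧ j = cj c then v (Nat.land (tb e c) 15) else 0) := by
    intro c hc
    by_cases h3 : i = ci c ∧ j = cj c
    · have h5 := (hs c (mem_range.1 hc) i hi' j hj').2 h3
      simp only [if_pos h3]
      unfold act
      rw [← h5]
    · simp only [if_neg h3, neg_zero, ite_self]
  rw [sum_congr rfl h4]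
  split_ifs with h6
  · rw [sum_neg_distrib]
  · rfl

/-- invariance under the group. -/
theorem GInv.of_cls {F : Bool → NM → ℝ} (h : Cls F) : GInv F := by
  refine GInv.of_gen ?_ ?_ ?_ ?_ ?_
  · intro b v
    rw [← h.m01 b (emb v)]
    refine h.ext b _ _ ?_
    have := emb_src 1 (fun i j => (s01 i, s01 j)) (fun _ _ => false) (by decide +kernel)
      (by decide +kernel) (by decide +kernel) v
    simpa using this
  · intro b v
    rw [← h.m23 b (emb v)]
    refine h.ext b _ _ ?_
    have := emb_src 2 (fun i j => (s23 i, s23 j)) (fun _ _ => false) (by decide +kernel)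
      (by decide +kernel) (by decide +kernel) v
    simpa using this
  · intro b v
    rw [← h.mx b (emb v), ← h.fold b (fun i j => emb v (sx i) (sx j))]
    refine h.ext b _ _ ?_
    have := emb_src 4 (fun i j => if i < 4 ∧ j < 4 then (sx j, sx i) else (sx i, sx j))
      (fun i j => decide (i < 4 ∧ j < 4)) (by decide +kernel)
      (by decide +kernel) (by decide +kernel) v
    intro i hi j hj
    rw [this i hi j hj]
    unfold H387U.fold
    by_cases h4 : i < 4 ∧ j < 4
    · simp only [h4, and_self, decide_true, if_true]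
    · simp only [h4, decide_false, if_false, Bool.false_eq_true]
  · intro b v
    rw [← h.trans b (emb v), ← h.fold b (fun i j => emb v j i)]
    refine h.ext b _ _ ?_
    have := emb_src 8 (fun i j => if i < 4 ∧ j < 4 then (i, j) else (j, i))
      (fun i j => decide (i < 4 ∧ j < 4)) (by decide +kernel)
      (by decide +kernel) (by decide +kernel) v
    intro i hi j hj
    rw [this i hi j hj]
    unfold H387U.fold
    by_cases h4 : i < 4 ∧ j < 4
    · simp only [h4, and_self, decide_true, if_true]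
    · simp only [h4, decide_false, if_false, Bool.false_eq_true]
  · intro b v
    rw [← h.neg b (emb v)]
    refine h.ext b _ _ ?_
    have := emb_src 16 (fun i j => (i, j)) (fun _ _ => true) (by decide +kernel)
      (by decide +kernel) (by decide +kernel) v
    simpa using this

end Vale.Agent.P355.H129U
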