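import Vale.Agent.P355.H129U.Code
import Vale.Agent.P355.H129.Psd

/-! Kernel checker for label-only squares with four marks. -/

namespace Vale.Agent.P355.H129U

open Finset Vale.Agent.P355
open Vale.Agent.P355.H129 (dg Gm Gm_comm psdCk psdCk_nonneg psdCk_bdd)
open Vale.Agent.P355.H138 (par6 PSD)
open Vale.Agent.P355.H387 (seq seq_eq AT upd eqT)
open Vale.Agent.P355.H387U (NM Cls pb FV CT AF loadL loadL_sound evL eqT_sound zeroT)

variable {F : Bool → NM → ℝ}

/-- the shifts of a pair: `c` is inserted at the class of every shift. -/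
noncomputable def shs (ct : CT) (Tk Tl off c : ℕ) (L : List Fl) :
    ℕ → ℕ → AT → (ℕ → ℕ → AT → Bool) → Bool :=
  List.rec (motive := fun _ => ℕ → ℕ → AT → (ℕ → ℕ → AT → Bool) → Bool)
    (fun R S A k => k R S A)
    (fun s _ ih R S A k =>
      seq (Nat.land R 31) fun g =>
      seq (Nat.land (Nat.shiftRight R 5) 63) fun lo =>
      seq (Nat.land (Nat.shiftRight R 11) 16383) fun hi =>
      cond (Nat.beq (Nat.add (ct.get hi lo) (tk Tl g))
          (Nat.add (Nat.add (tk s.T g) (tk Tk g)) off))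
        (A.ins hi (upd c lo) fun A' => seq (Nat.shiftRight R 25) fun R' =>
          seq (Nat.add S (Nat.succ c)) fun S' => ih R' S' A' k)
        false) L

/-- value of the shifts. -/
noncomputable def sv (F : Bool → NM → ℝ) (b : Bool) (f f' : Fl) (L : List Fl) : ℝ :=
  (L.map fun s => F b (emb fun c => f.vec c - f'.vec c + s.vec c)).sum

theorem land31 (r : ℕ) : Nat.land r 31 < 32 := lt_of_le_of_lt Nat.and_le_right (by norm_num)

theorem shs_sound (hF : Cls F) {ct : CT} {f f' : Fl} (h : f.ok = true) (h' : f'.ok = true)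
    (b : Bool) (c : ℕ) (k : ℕ → ℕ → AT → Bool) (L : List Fl) (hL : ∀ s ∈ L, s.okS = true) :
    ∀ (R S : ℕ) (A : AT) (V : ℝ), AF F ct A S V →
      shs ct f.T f'.T (cond b pb 0) c L R S A k = true →
      ∃ R' S' A', AF F ct A' S' (V + c * sv F b f f' L) ∧ S ≤ S' ∧ k R' S' A' = true := by
  induction L with
  | nil =>
    intro R S A V hA hk
    exact ⟨R, S, A, by simpa [sv] using hA, le_rfl, hk⟩
  | cons s L ih =>
    intro R S A V hA hk
    have hstep : shs ct f.T f'.T (cond b pb 0) c (s :: L) R S A k =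
      seq (Nat.land R 31) fun g =>
      seq (Nat.land (Nat.shiftRight R 5) 63) fun lo =>
      seq (Nat.land (Nat.shiftRight R 11) 16383) fun hi =>
      cond (Nat.beq (Nat.add (ct.get hi lo) (tk f'.T g))
          (Nat.add (Nat.add (tk s.T g) (tk f.T g)) (cond b pb 0)))
        (A.ins hi (upd c lo) fun A' => seq (Nat.shiftRight R 25) fun R' =>
          seq (Nat.add S (Nat.succ c)) fun S' => shs ct f.T f'.T (cond b pb 0) c L R' S' A' k)
        false := rfl
    rw [hstep] at hk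
    simp only [seq_eq] at hk
    have hg := land31 R
    generalize Nat.land R 31 = g at hk hg
    generalize Nat.land (Nat.shiftRight R 5) 63 = lo at hk
    generalize Nat.land (Nat.shiftRight R 11) 16383 = hi at hk
    cases hb : Nat.beq (Nat.add (ct.get hi lo) (tk f'.T g))
        (Nat.add (Nat.add (tk s.T g) (tk f.T g)) (cond b pb 0)) with
    | false => rw [hb] at hk; simp at hk
    | true =>
      rw [hb] at hk
      simp only [cond_true] at hk
      have hv := entry_val hF h h' (hL s List.mem_cons_self) hg b (Nat.eq_of_beq_eq_true hb)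
      obtain ⟨A1, a1, a2⟩ := hA.ins _ _ _ _ hk
      rw [hv] at a1
      have hS : Nat.add S (Nat.succ c) = S + c + 1 := rfl
      rw [← hS] at a1
      obtain ⟨R', S', A', b1, b2, b3⟩ := ih (fun s hs => hL s (List.mem_cons_of_mem _ hs)) _ _ _ _
        a1 a2
      refine ⟨R', S', A', ?_, ?_, b3⟩
      · have e : V + (c : ℝ) * sv F b f f' (s :: L) = V + (c : ℝ) *
            F b (emb fun c => f.vec c - f'.vec c + s.vec c) + (c : ℝ) * sv F b f f' L := by
          unfold sv
          rw [List.map_cons, List.sum_cons]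
          ring
        rw [e]; exact b1
      · rw [hS] at b2
        omega

/-- parity bit. -/
def offb (bk bl : ℕ) : ℕ :=
  Nat.rec (motive := fun _ => ℕ) (Nat.rec (motive := fun _ => ℕ) 0 (fun _ _ => pb) bl)
    (fun _ _ => Nat.rec (motive := fun _ => ℕ) pb (fun _ _ => 0) bl) bk

theorem offb_eq (f f' : Fl) : offb f.b f'.b = cond (xor f.par f'.par) pb 0 := by
  unfold Fl.par
  cases f.b <;> cases f'.b <;> rfl

/-- parity factor. -/
def p6 (bk bl : ℕ) : ℕ :=
  Nat.rec (motive := fun _ => ℕ) 1 (fun _ _ => Nat.rec (motive := fun _ => ℕ) 1 (fun _ _ => 6) bl) bk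

theorem p6_eq (f f' : Fl) : (p6 f.b f'.b : ℤ) = par6 f.par f'.par := by
  unfold Fl.par
  cases f.b <;> cases f'.b <;> rfl

/-- one pair. -/
noncomputable def pair (ct : CT) (sh : List Fl) (oU : ℕ) (f f' : Fl) (dd u R S : ℕ) (P Q : AT)
    (k : ℕ → ℕ → AT → AT → Bool) : Bool :=
  seq (offb f.b f'.b) fun off => seq (Nat.mul dd (p6 f.b f'.b)) fun m =>
  cond (Nat.ble oU u)
    (seq (Nat.mul m (Nat.sub u oU)) fun c => shs ct f.T f'.T off c sh R S P
      fun R' S' P' => k R' S' P' Q)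
    (seq (Nat.mul m (Nat.sub oU u)) fun c => shs ct f.T f'.T off c sh R S Q
      fun R' S' Q' => k R' S' P Q')

/-- value of a pair. -/
noncomputable def pv (F : Bool → NM → ℝ) (sh : List Fl) (f f' : Fl) : ℝ :=
  (par6 f.par f'.par : ℝ) * sv F (xor f.par f'.par) f f' sh

theorem pair_sound (hF : Cls F) {ct : CT} {sh : List Fl} (hsh : ∀ s ∈ sh, s.okS = true)
    {oU : ℕ} {f f' : Fl} (h : f.ok = true) (h' : f'.ok = true) {dd u R S : ℕ} {P Q : AT}
    {V W : ℝ} (hP : AF F ct P S V) (hQ : AF F ct Q S W) (k : ℕ → ℕ → AT → AT → Bool)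
    (hk : pair ct sh oU f f' dd u R S P Q k = true) :
    ∃ R' S' P' Q' V' W', AF F ct P' S' V' ∧ AF F ct Q' S' W' ∧
      V' - W' = V - W + (dd : ℝ) * (((u : ℤ) - (oU : ℤ) : ℤ) : ℝ) * pv F sh f f' ∧
      k R' S' P' Q' = true := by
  unfold pair at hk
  simp only [seq_eq] at hk
  rw [offb_eq] at hk
  have hp := p6_eq f f'
  have hpR : ((p6 f.b f'.b : ℕ) : ℝ) = (par6 f.par f'.par : ℝ) := by exact_mod_cast congrArg (fun z : ℤ => (z : ℝ)) hp
  cases hb : Nat.ble oU u with
  | true =>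
    rw [hb] at hk
    simp only [cond_true] at hk
    have hle : oU ≤ u := Nat.le_of_ble_eq_true hb
    obtain ⟨R', S', P', a1, a2, a3⟩ := shs_sound hF h h' _ _ _ sh hsh _ _ _ _ hP hk
    refine ⟨R', S', P', Q, _, _, a1, hQ.mono a2, ?_, a3⟩
    have e1 : ((Nat.mul (Nat.mul dd (p6 f.b f'.b)) (Nat.sub u oU) : ℕ) : ℝ)
        = (dd : ℝ) * (par6 f.par f'.par : ℝ) * ((u : ℝ) - oU) := by
      show ((dd * p6 f.b f'.b * (u - oU) : ℕ) : ℝ) = _
      rw [Nat.cast_mul, Nat.cast_mul, Nat.cast_sub hle, hpR]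
    rw [e1]
    unfold pv
    push_cast
    ring
  | false =>
    rw [hb] at hk
    simp only [cond_false] at hk
    have hle : u ≤ oU := by
      by_contra hc
      have : Nat.ble oU u = true := Nat.ble_eq_true_of_le (by omega)
      rw [this] at hb
      exact absurd hb (by simp)
    obtain ⟨R', S', Q', a1, a2, a3⟩ := shs_sound hF h h' _ _ _ sh hsh _ _ _ _ hQ hk
    refine ⟨R', S', P, Q', _, _, hP.mono a2, a1, ?_, a3⟩
    have e1 : ((Nat.mul (Nat.mul dd (p6 f.b f'.b)) (Nat.sub oU u) : ℕ) : ℝ)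
        = (dd : ℝ) * (par6 f.par f'.par : ℝ) * ((oU : ℝ) - u) := by
      show ((dd * p6 f.b f'.b * (oU - u) : ℕ) : ℝ) = _
      rw [Nat.cast_mul, Nat.cast_mul, Nat.cast_sub hle, hpR]
    rw [e1]
    unfold pv
    push_cast
    ring

/-- the row of the flag `f`: the first `n` flags of `L`, then `f` itself. -/
noncomputable def rowN (ct : CT) (sh : List Fl) (w oU MW : ℕ) (f : Fl) (n : ℕ) :
    List Fl → ℕ → ℕ → ℕ → AT → AT → (ℕ → AT → AT → Bool) → Bool :=
  Nat.rec (motive := fun _ => List Fl → ℕ → ℕ → ℕ → AT → AT → (ℕ → AT → AT → Bool) → Bool)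
    (fun _ U R S P Q k => seq (Nat.land U MW) fun u =>
      pair ct sh oU f f 1 u R S P Q fun _ S' P' Q' => k S' P' Q')
    (fun _ ih L U R S P Q k => List.rec (motive := fun _ => Bool) false
      (fun f' L' _ => seq (Nat.land U MW) fun u =>
        pair ct sh oU f f' 2 u R S P Q fun R' S' P' Q' =>
          seq (Nat.shiftRight U w) fun U' => ih L' U' R' S' P' Q' k) L) n

/-- value of a row. -/
noncomputable def rv (F : Bool → NM → ℝ) (sh : List Fl) (w oU : ℕ) (f : Fl) (n : ℕ) (L : List Fl)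
    (U : ℕ) : ℝ :=
  ∑ l ∈ range n, 2 * (((dg (2 ^ w) U l : ℤ) - (oU : ℤ) : ℤ) : ℝ) * pv F sh f (L.getD l default)
    + (((dg (2 ^ w) U n : ℤ) - (oU : ℤ) : ℤ) : ℝ) * pv F sh f f

theorem dg_zero (w U : ℕ) : Nat.land U (2 ^ w - 1) = dg (2 ^ w) U 0 := by
  unfold dg
  rw [pow_zero, Nat.div_one]
  exact Nat.and_two_pow_sub_one_eq_mod U w

theorem dg_succ (w U l : ℕ) : dg (2 ^ w) (Nat.shiftRight U w) l = dg (2 ^ w) U (l + 1) := by
  unfold dg
  have : Nat.shiftRight U w = U / 2 ^ w := Nat.shiftRight_eq_div_pow U w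
  rw [this, Nat.div_div_eq_div_mul, ← pow_succ']

theorem rowN_sound (hF : Cls F) {ct : CT} {sh : List Fl} (hsh : ∀ s ∈ sh, s.okS = true)
    {w oU : ℕ} {f : Fl} (h : f.ok = true) (k : ℕ → AT → AT → Bool) (n : ℕ) :
    ∀ (L : List Fl) (_ : ∀ g ∈ L, g.ok = true) (U R S : ℕ) (P Q : AT) (V W : ℝ),
      AF F ct P S V → AF F ct Q S W →
      rowN ct sh w oU (2 ^ w - 1) f n L U R S P Q k = true →
      ∃ S' P' Q' V' W', AF F ct P' S' V' ∧ AF F ct Q' S' W' ∧
        V' - W' = V - W + rv F sh w oU f n L U ∧ k S' P' Q' = true := by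
  induction n with
  | zero =>
    intro L hL U R S P Q V W hP hQ hk
    have hk' : (seq (Nat.land U (2 ^ w - 1)) fun u =>
      pair ct sh oU f f 1 u R S P Q fun _ S' P' Q' => k S' P' Q') = true := hk
    rw [seq_eq, dg_zero] at hk'
    obtain ⟨R', S', P', Q', V', W', a1, a2, a3, a4⟩ := pair_sound hF hsh h h hP hQ _ hk'
    refine ⟨S', P', Q', V', W', a1, a2, ?_, a4⟩
    rw [a3]
    unfold rv
    rw [sum_range_zero]
    push_cast
    ring
  | succ n ih =>
    intro L hL U R S P Q V W hP hQ hk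
    cases L with
    | nil => exact absurd hk (by simp [rowN])
    | cons f' L =>
      have hk' : (seq (Nat.land U (2 ^ w - 1)) fun u =>
        pair ct sh oU f f' 2 u R S P Q fun R' S' P' Q' =>
          seq (Nat.shiftRight U w) fun U' =>
            rowN ct sh w oU (2 ^ w - 1) f n L U' R' S' P' Q' k) = true := hk
      rw [seq_eq, dg_zero] at hk'
      obtain ⟨R1, S1, P1, Q1, V1, W1, a1, a2, a3, a4⟩ :=
        pair_sound hF hsh h (hL f' List.mem_cons_self) hP hQ _ hk'
      rw [seq_eq] at a4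
      obtain ⟨S2, P2, Q2, V2, W2, b1, b2, b3, b4⟩ :=
        ih L (fun g hg => hL g (List.mem_cons_of_mem _ hg)) _ _ _ _ _ _ _ a1 a2 a4
      refine ⟨S2, P2, Q2, V2, W2, b1, b2, ?_, b4⟩
      rw [b3, a3]
      unfold rv
      rw [Finset.sum_range_succ']
      simp only [dg_succ, List.getD_cons_succ, List.getD_cons_zero]
      push_cast
      ring

/-- rows. -/
noncomputable def rowsG (ct : CT) (sh : List Fl) (w oU MW : ℕ) (fl : List Fl) (Us : List ℕ) :
    List ℕ → List Fl → ℕ → ℕ → AT → AT → (ℕ → AT → AT → Bool) → Bool :=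
  List.rec (motive := fun _ => List ℕ → List Fl → ℕ → ℕ → AT → AT →
      (ℕ → AT → AT → Bool) → Bool)
    (fun _ _ _ S P Q k => k S P Q)
    (fun U _ ih Rs K i S P Q k => List.rec (motive := fun _ => Bool) false
      (fun R Rs' _ => List.rec (motive := fun _ => Bool) false
        (fun f K' _ => rowN ct sh w oU MW f i fl U R S P Q fun S' P' Q' =>
          seq (Nat.succ i) fun i' => ih Rs' K' i' S' P' Q' k) K) Rs) Us

/-- value of the rows. -/
noncomputable def Rvs (F : Bool → NM → ℝ) (sh : List Fl) (w oU : ℕ) (fl : List Fl) (Us : List ℕ)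
    (K : List Fl) (i : ℕ) : ℝ :=
  ∑ a ∈ range Us.length, rv F sh w oU (K.getD a default) (i + a) fl (Us.getD a 0)

theorem rowsG_sound (hF : Cls F) {ct : CT} {sh : List Fl} (hsh : ∀ s ∈ sh, s.okS = true)
    {w oU : ℕ} {fl : List Fl} (hfl : ∀ g ∈ fl, g.ok = true) (k : ℕ → AT → AT → Bool)
    (Us : List ℕ) :
    ∀ (Rs : List ℕ) (K : List Fl) (_ : ∀ g ∈ K, g.ok = true) (i S : ℕ) (P Q : AT) (V W : ℝ),
      AF F ct P S V → AF F ct Q S W →
      rowsG ct sh w oU (2 ^ w - 1) fl Us Rs K i S P Q k = true →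
      ∃ S' P' Q' V' W', AF F ct P' S' V' ∧ AF F ct Q' S' W' ∧
        V' - W' = V - W + Rvs F sh w oU fl Us K i ∧ k S' P' Q' = true := by
  induction Us with
  | nil =>
    intro Rs K hK i S P Q V W hP hQ hk
    exact ⟨S, P, Q, V, W, hP, hQ, by simp [Rvs], hk⟩
  | cons U Us ih =>
    intro Rs K hK i S P Q V W hP hQ hk
    cases Rs with
    | nil => exact absurd hk (by simp [rowsG])
    | cons R Rs =>
      cases K with
      | nil => exact absurd hk (by simp [rowsG])
      | cons f K =>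
        have hk' : (rowN ct sh w oU (2 ^ w - 1) f i fl U R S P Q fun S' P' Q' =>
          seq (Nat.succ i) fun i' =>
            rowsG ct sh w oU (2 ^ w - 1) fl Us Rs K i' S' P' Q' k) = true := hk
        obtain ⟨S1, P1, Q1, V1, W1, a1, a2, a3, a4⟩ :=
          rowN_sound hF hsh (hK f List.mem_cons_self) _ _ fl hfl _ _ _ _ _ _ _ hP hQ hk'
        rw [seq_eq] at a4
        obtain ⟨S2, P2, Q2, V2, W2, b1, b2, b3, b4⟩ :=
          ih Rs K (fun g hg => hK g (List.mem_cons_of_mem _ hg)) _ _ _ _ _ _ a1 a2 a4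
        refine ⟨S2, P2, Q2, V2, W2, b1, b2, ?_, b4⟩
        rw [b3, a3]
        unfold Rvs
        rw [List.length_cons, Finset.sum_range_succ']
        simp only [List.getD_cons_succ, List.getD_cons_zero, add_zero]
        have e : ∀ a, Nat.succ i + a = i + (a + 1) := fun a => by omega
        simp only [e]
        ring

/-- the check of a chunk of rows (starting with row `i`). -/
noncomputable def ckG (ct : CT) (sh : List Fl) (fl : List Fl) (w oU i : ℕ) (Us Rs : List ℕ)
    (out : List (ℕ × ℕ)) : Bool :=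
  seq (Nat.sub (Nat.pow 2 w) 1) fun MW =>
  rowsG ct sh w oU MW fl Us Rs (fl.drop i) i 0 (zeroT ct) (zeroT ct) fun S P Q =>
    loadL out S Q P fun S' Q' P' => cond (Nat.blt S' 9223372036854775808) (eqT P' Q') false

theorem ckG_sound (hF : Cls F) {ct : CT} {sh : List Fl} (hsh : sh.all Fl.okS = true)
    {w oU : ℕ} {fl : List Fl} (hfl : fl.all Fl.ok = true) {i : ℕ} {Us Rs : List ℕ}
    {out : List (ℕ × ℕ)} (h : ckG ct sh fl w oU i Us Rs out = true) :
    Rvs F sh w oU fl Us (fl.drop i) i = evL F ct out := by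
  unfold ckG at h
  rw [seq_eq] at h
  rw [List.all_eq_true] at hsh hfl
  obtain ⟨S1, P1, Q1, V1, W1, a1, a2, a3, a4⟩ := rowsG_sound hF hsh hfl _ Us Rs (fl.drop i)
    (fun g hg => hfl g (List.mem_of_mem_drop hg)) i 0 _ _ 0 0 (H387U.AF.zero ct) (H387U.AF.zero ct) h
  obtain ⟨S2, Q2, P2, W2, V2, b1, b2, b3, b4⟩ := loadL_sound _ _ _ _ _ _ _ a2 a1 a4
  cases hz : Nat.blt S2 9223372036854775808 with
  | false => rw [hz] at b4; simp at b4
  | true =>
    rw [hz] at b4
    simp only [cond_true] at b4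
    have hS : S2 < 2 ^ 63 := by
      rw [Nat.blt_eq] at hz
      norm_num; exact hz
    have := eqT_sound b2 b1 hS hS b4
    linarith

end Vale.Agent.P355.H129U
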