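import Vale.Agent.P355.H129U.Act

/-! Numbers of the label-only classes: linear codes, flag tables. -/

namespace Vale.Agent.P355.H129U

open Finset Vale.Agent.P355
open Vale.Agent.P355.H387 (ofD ofD_congr)
open Vale.Agent.P355.H387U (NM Cls Enc df df_cast pb FV FV_enc)

/-- position of a cell. -/
def pos (c : ℕ) : ℕ := 10 * ci c + cj c

/-- code of a vector. -/
def cd (v : ℕ → ℤ) : ℤ := ∑ c ∈ range 13, v c * 64 ^ pos c

/-- code of the zero matrix. -/
def B0 : ℕ := 2107690447685583724958683359335192965593623483043777473013667215080966507384334296583978183592179705035275117008914686568835632292272647775434603090343600602951711392203941345364000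

theorem B0_eq : B0 = ofD 100 fun _ => 32 := by decide +kernel

theorem pos_tab : ∀ c < 13, pos c < 100 ∧ pos c / 10 = ci c ∧ pos c % 10 = cj c := by
  decide +kernel

theorem cells31 : ∀ i < 10, ∀ j < 10,
    ∑ c ∈ range 13, (if i = ci c ∧ j = cj c then (31 : ℤ) else 0) ≤ 31 := by
  decide +kernel

theorem emb_bd {v : ℕ → ℤ} (h : ∀ c < 13, |v c| ≤ 31) : ∀ i < 10, ∀ j < 10, |emb v i j| ≤ 31 := by
  intro i hi j hj
  unfold emb
  refine (Finset.abs_sum_le_sum_abs _ _).trans ((sum_le_sum fun c hc => ?_).trans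
    (cells31 i hi j hj))
  split_ifs with h1
  · exact h c (mem_range.1 hc)
  · simp

theorem emb_code (v : ℕ → ℤ) :
    ∑ i ∈ range 100, emb v (i / 10) (i % 10) * 64 ^ i = cd v := by
  unfold emb cd
  simp only [sum_mul]
  rw [sum_comm]
  refine sum_congr rfl fun c hc => ?_
  obtain ⟨h1, h2, h3⟩ := pos_tab c (mem_range.1 hc)
  rw [Finset.sum_eq_single (pos c)]
  · rw [if_pos ⟨h2, h3⟩]
  · intro i hi hne
    rw [if_neg, zero_mul]
    rintro ⟨e1, e2⟩
    apply hne
    unfold pos
    omega
  · intro h
    exact absurd (mem_range.2 h1) h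

theorem enc_emb {v : ℕ → ℤ} (h : ∀ c < 13, |v c| ≤ 31) :
    ∃ Y : ℕ, (Y : ℤ) = B0 + cd v ∧ Enc Y (emb v) := by
  have hb := emb_bd h
  refine ⟨ofD 100 (df (emb v)), ?_, rfl, hb⟩
  rw [B0_eq]
  unfold ofD
  push_cast
  rw [← emb_code, ← sum_add_distrib]
  refine sum_congr rfl fun i hi => ?_
  rw [df_cast (emb v) hb i (mem_range.1 hi)]
  ring

theorem cd_add (v w : ℕ → ℤ) : cd (fun c => v c + w c) = cd v + cd w := by
  unfold cd
  rw [← sum_add_distrib]
  exact sum_congr rfl fun c _ => by ring

theorem cd_sub (v w : ℕ → ℤ) : cd (fun c => v c - w c) = cd v - cd w := by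
  unfold cd
  rw [← sum_sub_distrib]
  exact sum_congr rfl fun c _ => by ring

/-! ### Evaluation in the kernel -/

/-- weights of the cells. -/
def Wt (c : ℕ) : ℕ :=
  [29642774844752946028434172162224104410437116074403984394101141506025761187823616, 1766847064778384329583297500742918515827483896875618958121606201292619776, 113078212145816597093331040047546785012958969400039613319782796882727665664, 7237005577332262213973186563042994240829374041602535252466099000494570602496, 463168356949264781694283940034751631413079938662562256157830336031652518559744, 16777216, 19342813113834066795298816, 22300745198530623141535718272648361505980416, 25711008708143844408671393477458601640355247900524685364822016, 4096, 262144, 4722366482869645213696, 302231454903657293676544].getD c 0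

theorem Wt_eq : ∀ c < 13, Wt c = 64 ^ pos c := by decide +kernel

/-- offset. -/
def O8 : ℕ := 240906360418710029544278887290426334054133542796405367218275591630837063354449920

theorem O8_eq : O8 = ∑ c ∈ range 13, 8 * 64 ^ pos c := by decide +kernel

/-- code with offset. -/
def codeN (u : ℕ → ℤ) : ℕ :=
  (List.range 13).foldr (fun c a => Nat.add (Nat.mul (Int.toNat (u c + 8)) (Wt c)) a) 0

theorem codeN_eq {u : ℕ → ℤ} (h : ∀ c < 13, -8 ≤ u c) : (codeN u : ℤ) = O8 + cd u := by
  have h1 : codeN u = ∑ c ∈ range 13, Int.toNat (u c + 8) * Wt c := by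
    unfold codeN
    have key : ∀ l : List ℕ, l.foldr (fun c a => Nat.add (Nat.mul (Int.toNat (u c + 8)) (Wt c)) a) 0
        = (l.map fun c => Int.toNat (u c + 8) * Wt c).sum := by
      intro l
      induction l with
      | nil => rfl
      | cons a l ih =>
        rw [List.foldr_cons, ih, List.map_cons, List.sum_cons]
        rfl
    rw [key, Finset.sum_range, ← List.sum_ofFn]
    congr 1
  rw [h1, O8_eq]
  unfold cd
  push_cast
  rw [← sum_add_distrib]
  refine sum_congr rfl fun c hc => ?_
  have hc' := mem_range.1 hc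
  rw [Int.toNat_of_nonneg (by have := h c hc'; omega), Wt_eq c hc']
  push_cast
  ring

/-- flags: vector, parity, table of the codes of the 32 images (640 bits each). -/
structure Fl where
  v : List ℤ
  b : ℕ
  T : ℕ

instance : Inhabited Fl := ⟨⟨[], 0, 0⟩⟩

/-- the vector. -/
def Fl.vec (f : Fl) : ℕ → ℤ := fun c => f.v.getD c 0

/-- the parity. -/
def Fl.par (f : Fl) : Bool := decide (f.b ≠ 0)

/-- entry of a table. -/
def tk (T g : ℕ) : ℕ := Nat.land (Nat.shiftRight T (Nat.mul 640 g)) 4562440617622195218641171605700291324893228507248559930579192517899275167208677386505912811317371399778642309573594407310688704721375437998252661319722214188251994674360264950082874192246603775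

/-- check of a flag. -/
def Fl.ok (f : Fl) : Bool :=
  ((List.range 13).all fun c => decide (-7 ≤ f.vec c ∧ f.vec c ≤ 7)) &&
  ((List.range 32).all fun g => Nat.beq (tk f.T g) (codeN (act g f.vec)))

/-- check of a shift. -/
def Fl.okS (f : Fl) : Bool :=
  ((List.range 13).all fun c => decide (-7 ≤ f.vec c ∧ f.vec c ≤ 7)) &&
  ((List.range 32).all fun g => Nat.beq (Nat.add (tk f.T g) O8) (Nat.add B0 (codeN (act g f.vec))))

theorem act_abs {v : ℕ → ℤ} {M : ℤ} (h : ∀ c < 13, |v c| ≤ M) {g : ℕ} (hg : g < 32) :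
    ∀ c < 13, |act g v c| ≤ M := by
  intro c hc
  have h1 := h _ (tb_lt hg hc).2
  unfold act
  split_ifs
  · rwa [abs_neg]
  · exact h1

theorem Fl.ok_spec {f : Fl} (h : f.ok = true) :
    (∀ c < 13, |f.vec c| ≤ 7) ∧ ∀ g < 32, (tk f.T g : ℤ) = O8 + cd (act g f.vec) := by
  unfold Fl.ok at h
  simp only [List.all_eq_true, List.mem_range, Bool.and_eq_true, decide_eq_true_eq] at h
  obtain ⟨h1, h2⟩ := h
  have h3 : ∀ c < 13, |f.vec c| ≤ 7 := fun c hc => abs_le.2 (h1 c hc)
  refine ⟨h3, fun g hg => ?_⟩
  rw [Nat.eq_of_beq_eq_true (h2 g hg)]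
  refine codeN_eq fun c hc => ?_
  have := (abs_le.1 (act_abs h3 hg c hc)).1
  linarith

theorem Fl.okS_spec {f : Fl} (h : f.okS = true) :
    (∀ c < 13, |f.vec c| ≤ 7) ∧ ∀ g < 32, (tk f.T g : ℤ) = B0 + cd (act g f.vec) := by
  unfold Fl.okS at h
  simp only [List.all_eq_true, List.mem_range, Bool.and_eq_true, decide_eq_true_eq] at h
  obtain ⟨h1, h2⟩ := h
  have h3 : ∀ c < 13, |f.vec c| ≤ 7 := fun c hc => abs_le.2 (h1 c hc)
  refine ⟨h3, fun g hg => ?_⟩
  have h4 : ((tk f.T g + O8 : ℕ) : ℤ) = ((B0 + codeN (act g f.vec) : ℕ) : ℤ) := by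
    exact_mod_cast Nat.eq_of_beq_eq_true (h2 g hg)
  push_cast at h4
  rw [codeN_eq fun c hc => by
    have := (abs_le.1 (act_abs h3 hg c hc)).1
    linarith] at h4
  linarith

/-- **value of a table entry.** -/
theorem entry_val {F : Bool → NM → ℝ} (hF : Cls F) {f f' s : Fl} (h : f.ok = true)
    (h' : f'.ok = true) (hs : s.okS = true) {g : ℕ} (hg : g < 32) (b : Bool) {E : ℕ}
    (hE : Nat.add E (tk f'.T g) = Nat.add (Nat.add (tk s.T g) (tk f.T g)) (cond b pb 0)) :
    FV F E = F b (emb fun c => f.vec c - f'.vec c + s.vec c) := by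
  obtain ⟨a1, a2⟩ := Fl.ok_spec h
  obtain ⟨b1, b2⟩ := Fl.ok_spec h'
  obtain ⟨c1, c2⟩ := Fl.okS_spec hs
  rw [← GInv.of_cls hF g hg b]
  have hv : ∀ c < 13, |f.vec c - f'.vec c + s.vec c| ≤ 31 := by
    intro c hc
    have e1 := abs_le.1 (a1 c hc)
    have e2 := abs_le.1 (b1 c hc)
    have e3 := abs_le.1 (c1 c hc)
    exact abs_le.2 ⟨by linarith, by linarith⟩
  have hlin : cd (act g fun c => f.vec c - f'.vec c + s.vec c)
      = cd (act g f.vec) - cd (act g f'.vec) + cd (act g s.vec) := by
    have e : (act g fun c => f.vec c - f'.vec c + s.vec c)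
        = fun c => (fun c => act g f.vec c - act g f'.vec c) c + act g s.vec c := by
      funext c
      show act g (fun c => f.vec c - f'.vec c + s.vec c) c
        = act g f.vec c - act g f'.vec c + act g s.vec c
      unfold act
      split_ifs
      · ring
      · rfl
    rw [e, cd_add, cd_sub]
  obtain ⟨Y, y1, y2⟩ := enc_emb fun c hc => act_abs hv hg c hc
  have hEY : E = Nat.add Y (cond b pb 0) := by
    have e1 := a2 g hg
    have e2 := b2 g hg
    have e3 := c2 g hg
    have e4 : ((E + tk f'.T g : ℕ) : ℤ) = ((tk s.T g + tk f.T g + cond b pb 0 : ℕ) : ℤ) := by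
      exact_mod_cast hE
    have e5 : (E : ℤ) = ((Y + cond b pb 0 : ℕ) : ℤ) := by
      push_cast at e4 ⊢
      rw [y1, hlin]
      linarith
    exact_mod_cast e5
  rw [hEY]
  exact FV_enc hF y2 b

end Vale.Agent.P355.H129U
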