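import Vale.Agent.P355.H129U.Sos
import Vale.Agent.P355.H693U.Cnv

/-! Label-only squares for the class functions of the frames. -/

namespace Vale.Agent.P355.H129U

open Finset Vale.Agent.P355
open Vale.Agent.P355.H693U (V Fr Fn toM Fv_sq)

theorem sqN_Fn {y : V → V → ℂ} (h : Fr y) : SqN (Fn y) := by
  intro N G hG b f
  exact Fv_sq h N G hG b fun i => toM (f i)

end Vale.Agent.P355.H129U
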