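import Vale.Agent.P355.H129U.Chk

/-! The checked blocks are sums of squares. -/

namespace Vale.Agent.P355.H129U

open Finset Vale.Agent.P355
open Vale.Agent.P355.H129 (dg Gm Gm_comm psdCk psdCk_nonneg psdCk_bdd)
open Vale.Agent.P355.H138 (par6 PSD)
open Vale.Agent.P355.H387U (NM Cls CT evL)

variable {F : Bool → NM → ℝ}

theorem sum_divmod (n r : ℕ) (hr : 0 < r) (g : ℕ → ℕ → ℝ) :
    ∑ i ∈ range (n * r), g (i / r) (i % r) = ∑ k ∈ range n, ∑ t ∈ range r, g k t := by
  induction n with
  | zero => simp
  | succ n ih =>
    rw [Nat.succ_mul, Finset.sum_range_add, ih, Finset.sum_range_succ]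
    congr 1
    refine sum_congr rfl fun t ht => ?_
    have ht' := mem_range.1 ht
    have e1 : (n * r + t) / r = n := by
      rw [mul_comm, Nat.mul_add_div hr, Nat.div_eq_of_lt ht', add_zero]
    have e2 : (n * r + t) % r = t := by
      rw [mul_comm, Nat.mul_add_mod, Nat.mod_eq_of_lt ht']
    rw [e1, e2]

theorem tri_sum (n : ℕ) (a : ℕ → ℕ → ℝ) (ha : ∀ k l, a k l = a l k) :
    ∑ k ∈ range n, ∑ l ∈ range n, a k l
      = ∑ k ∈ range n, (∑ l ∈ range k, 2 * a k l + a k k) := by
  induction n with
  | zero => simp
  | succ n ih =>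
    rw [Finset.sum_range_succ (fun k => ∑ l ∈ range (n + 1), a k l) n,
      Finset.sum_range_succ (fun k => ∑ l ∈ range k, 2 * a k l + a k k) n, ← ih]
    have e1 : ∑ k ∈ range n, ∑ l ∈ range (n + 1), a k l
        = ∑ k ∈ range n, ∑ l ∈ range n, a k l + ∑ l ∈ range n, a n l := by
      rw [← sum_add_distrib]
      refine sum_congr rfl fun k _ => ?_
      rw [Finset.sum_range_succ, ha k n]
    rw [e1, Finset.sum_range_succ (fun l => a n l) n, ← mul_sum]
    ring

theorem sum_getD {α : Type} [Inhabited α] (g : α → ℝ) (L : List α) :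
    (L.map g).sum = ∑ i ∈ range L.length, g (L.getD i default) := by
  induction L with
  | nil => simp
  | cons a L ih =>
    rw [List.map_cons, List.sum_cons, ih, List.length_cons, Finset.sum_range_succ']
    simp only [List.getD_cons_succ, List.getD_cons_zero]
    ring

/-- entries of the monomials. -/
def mv (ms : List (List ℤ)) (t c : ℕ) : ℤ := (ms.getD t []).getD c 0

/-- the shifts are the differences of the monomials. -/
def okM (ms : List (List ℤ)) (sh : List Fl) : Bool :=
  decide (0 < ms.length) && (Nat.beq sh.length (ms.length * ms.length) &&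
  ((List.range (ms.length * ms.length)).all fun i => (List.range 13).all fun c =>
    decide ((sh.getD i default).vec c = mv ms (i / ms.length) c - mv ms (i % ms.length) c)))

theorem sv_eq {ms : List (List ℤ)} {sh : List Fl} (h : okM ms sh = true) (b : Bool) (f f' : Fl) :
    sv F b f f' sh = ∑ t ∈ range ms.length, ∑ t' ∈ range ms.length,
      F b (emb fun c => f.vec c - f'.vec c + (mv ms t c - mv ms t' c)) := by
  unfold okM at h
  simp only [Bool.and_eq_true, decide_eq_true_eq, List.all_eq_true, List.mem_range] at h
  obtain ⟨h0, h1, h2⟩ := h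
  have h1' := Nat.eq_of_beq_eq_true h1
  unfold sv
  rw [sum_getD, h1', ← sum_divmod _ _ h0 (fun t t' => F b (emb fun c =>
    f.vec c - f'.vec c + (mv ms t c - mv ms t' c)))]
  refine sum_congr rfl fun i hi => ?_
  congr 1
  refine emb_congr fun c hc => ?_
  rw [h2 i (mem_range.1 hi) c hc]

theorem emb_neg (v : ℕ → ℤ) : emb (fun c => - v c) = fun i j => - emb v i j := by
  funext i j
  unfold emb
  rw [← sum_neg_distrib]
  exact sum_congr rfl fun c _ => by split_ifs <;> simp

theorem emb_add (v w : ℕ → ℤ) : emb (fun c => v c + w c) = fun i j => emb v i j + emb w i j := by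
  funext i j
  unfold emb
  rw [← sum_add_distrib]
  exact sum_congr rfl fun c _ => by split_ifs <;> simp

theorem sv_comm (hF : Cls F) {ms : List (List ℤ)} {sh : List Fl} (h : okM ms sh = true) (b : Bool)
    (f f' : Fl) : sv F b f f' sh = sv F b f' f sh := by
  rw [sv_eq h, sv_eq h, sum_comm]
  refine sum_congr rfl fun t _ => sum_congr rfl fun t' _ => ?_
  rw [← hF.neg b (emb fun c => f.vec c - f'.vec c + (mv ms t' c - mv ms t c)), ← emb_neg]
  congr 1
  refine emb_congr fun c _ => ?_
  ring

theorem par6_comm (b c : Bool) : par6 b c = par6 c b := by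
  cases b <;> cases c <;> rfl

theorem pv_comm (hF : Cls F) {ms : List (List ℤ)} {sh : List Fl} (h : okM ms sh = true)
    (f f' : Fl) : pv F sh f f' = pv F sh f' f := by
  unfold pv
  rw [par6_comm, Bool.xor_comm, sv_comm hF h]

theorem psd_lift {n r : ℕ} (hr : 0 < r) {G : ℕ → ℕ → ℝ} (h : PSD n G) :
    PSD (n * r) fun i j => G (i / r) (j / r) := by
  intro z
  have h1 := h fun k => ∑ t ∈ range r, z (k * r + t)
  have hz : ∀ i, z i = z (i / r * r + i % r) := fun i => by rw [Nat.div_add_mod']
  have h2 : ∑ i ∈ range (n * r), ∑ j ∈ range (n * r), G (i / r) (j / r) * (z i * star (z j)).re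
      = ∑ k ∈ range n, ∑ l ∈ range n, G k l *
        ((∑ t ∈ range r, z (k * r + t)) * star (∑ t ∈ range r, z (l * r + t))).re := by
    calc _ = ∑ i ∈ range (n * r), ∑ j ∈ range (n * r), G (i / r) (j / r) *
          (z (i / r * r + i % r) * star (z (j / r * r + j % r))).re := by
            refine sum_congr rfl fun i _ => sum_congr rfl fun j _ => ?_
            rw [← hz i, ← hz j]
      _ = ∑ k ∈ range n, ∑ t ∈ range r, ∑ l ∈ range n, ∑ t' ∈ range r, G k l *
          (z (k * r + t) * star (z (l * r + t'))).re := by
            rw [← sum_divmod n r hr (fun k t => ∑ l ∈ range n, ∑ t' ∈ range r, G k l *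
              (z (k * r + t) * star (z (l * r + t'))).re)]
            refine sum_congr rfl fun i _ => ?_
            exact sum_divmod n r hr (fun l t' => G (i / r) l *
              (z (i / r * r + i % r) * star (z (l * r + t'))).re)
      _ = _ := by
            refine sum_congr rfl fun k _ => ?_
            rw [sum_comm]
            refine sum_congr rfl fun l _ => ?_
            rw [star_sum, Finset.sum_mul_sum, Complex.re_sum, mul_sum]
            refine sum_congr rfl fun t _ => ?_
            rw [Complex.re_sum, mul_sum]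
  rw [h2]
  exact h1

/-- **the blocks are nonnegative.** -/
theorem Rvs_nonneg (hF : Cls F) (hS : SqN F) {ms : List (List ℤ)} {sh fl : List Fl}
    {w bu bl v n c o oU δ : ℕ} {Us Cs : List ℕ} (hck : psdCk w bu bl v n c o oU δ Us Cs = true)
    (hm : okM ms sh = true) : 0 ≤ Rvs F sh w oU fl Us fl 0 := by
  obtain ⟨hn, -⟩ := psdCk_bdd hck
  have hr : 0 < ms.length := by
    unfold okM at hm
    rw [Bool.and_eq_true] at hm
    exact of_decide_eq_true hm.1
  set fk : ℕ → Fl := fun k => fl.getD k default with hfk
  have h1 : Rvs F sh w oU fl Us fl 0 = ∑ k ∈ range n, ∑ l ∈ range n,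
      (Gm w oU Us k l : ℝ) * pv F sh (fk k) (fk l) := by
    rw [tri_sum n (fun k l => (Gm w oU Us k l : ℝ) * pv F sh (fk k) (fk l)) (fun k l => by
      rw [Gm_comm, pv_comm hF hm])]
    unfold Rvs
    rw [hn]
    refine sum_congr rfl fun k _ => ?_
    unfold rv
    rw [zero_add]
    have hG : ∀ l ≤ k, Gm w oU Us k l = (dg (2 ^ w) (Us.getD k 0) l : ℤ) - oU := by
      intro l hl
      unfold Gm
      rw [max_eq_left hl, min_eq_right hl]
    rw [hG k le_rfl]
    congr 1
    refine sum_congr rfl fun l hl => ?_
    rw [hG l (mem_range.1 hl).le]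
    ring
  rw [h1]
  have h2 := hS (n * ms.length) (fun i j => (Gm w oU Us (i / ms.length) (j / ms.length) : ℝ))
    (psd_lift hr (G := fun i j => (Gm w oU Us i j : ℝ)) fun z => psdCk_nonneg hck z)
    (fun i => (fk (i / ms.length)).par)
    (fun i => emb fun c => (fk (i / ms.length)).vec c + mv ms (i % ms.length) c)
  have h3 : ∑ i ∈ range (n * ms.length), ∑ j ∈ range (n * ms.length),
      (Gm w oU Us (i / ms.length) (j / ms.length) : ℝ) *
      ((par6 (fk (i / ms.length)).par (fk (j / ms.length)).par : ℝ) *
      F (xor (fk (i / ms.length)).par (fk (j / ms.length)).par) (fun p q =>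
        emb (fun c => (fk (i / ms.length)).vec c + mv ms (i % ms.length) c) p q -
        emb (fun c => (fk (j / ms.length)).vec c + mv ms (j % ms.length) c) p q))
      = ∑ k ∈ range n, ∑ l ∈ range n, (Gm w oU Us k l : ℝ) * pv F sh (fk k) (fk l) := by
    set T : ℕ → ℕ → ℕ → ℕ → ℝ := fun k t l t' => (Gm w oU Us k l : ℝ) *
      ((par6 (fk k).par (fk l).par : ℝ) * F (xor (fk k).par (fk l).par)
        (emb fun c => (fk k).vec c - (fk l).vec c + (mv ms t c - mv ms t' c))) with hT
    have e1 : ∀ i j, (Gm w oU Us (i / ms.length) (j / ms.length) : ℝ) *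
        ((par6 (fk (i / ms.length)).par (fk (j / ms.length)).par : ℝ) *
        F (xor (fk (i / ms.length)).par (fk (j / ms.length)).par) (fun p q =>
          emb (fun c => (fk (i / ms.length)).vec c + mv ms (i % ms.length) c) p q -
          emb (fun c => (fk (j / ms.length)).vec c + mv ms (j % ms.length) c) p q))
        = T (i / ms.length) (i % ms.length) (j / ms.length) (j % ms.length) := by
      intro i j
      simp only [hT]
      congr 3
      rw [← emb_sub]
      refine emb_congr fun c _ => ?_
      ring
    simp only [e1]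
    calc _ = ∑ k ∈ range n, ∑ t ∈ range ms.length, ∑ l ∈ range n, ∑ t' ∈ range ms.length,
          T k t l t' := by
            rw [← sum_divmod n ms.length hr (fun k t => ∑ l ∈ range n, ∑ t' ∈ range ms.length,
              T k t l t')]
            refine sum_congr rfl fun i _ => ?_
            exact sum_divmod n ms.length hr (fun l t' => T (i / ms.length) (i % ms.length) l t')
      _ = _ := by
            refine sum_congr rfl fun k _ => ?_
            rw [sum_comm]
            refine sum_congr rfl fun l _ => ?_
            simp only [hT]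
            unfold pv
            rw [sv_eq hm, mul_sum, mul_sum]
            refine sum_congr rfl fun t _ => ?_
            rw [mul_sum, mul_sum]
  rw [← h3]
  exact h2

/-- concatenation of chunks. -/
theorem Rvs_append (sh : List Fl) (w oU : ℕ) (fl : List Fl) (Us Us' : List ℕ) (i j : ℕ)
    (hj : i + Us.length = j) :
    Rvs F sh w oU fl (Us ++ Us') (fl.drop i) i
      = Rvs F sh w oU fl Us (fl.drop i) i + Rvs F sh w oU fl Us' (fl.drop j) j := by
  unfold Rvs
  rw [List.length_append, Finset.sum_range_add]
  congr 1
  · refine sum_congr rfl fun a ha => ?_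
    rw [List.getD_append _ _ _ _ (mem_range.1 ha)]
  · refine sum_congr rfl fun a ha => ?_
    rw [List.getD_append_right _ _ _ _ (Nat.le_add_right _ _), Nat.add_sub_cancel_left]
    have e : i + (Us.length + a) = j + a := by omega
    rw [e]
    congr 1
    simp only [List.getD_eq_getElem?_getD, List.getElem?_drop]
    rw [e]

end Vale.Agent.P355.H129U
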